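import Mathlib

/-!
P045 (Ryser's conjecture).  Special case: *shifted* (compressed) `r`-partite hypergraphs.

An `r`-partite `r`-uniform hypergraph whose `i`-th part is a copy `{i} × α` of `α` is recorded as a
finite set `H` of functions `e : Fin r → α`: the edge `e` consists of the vertices `(i, e i)`.
If every part is linearly ordered (labelled by an initial segment of `ℕ`) and the edge set is closed
under lowering vertices inside their parts (`H` is a lower set of `Fin r → ℕ`), then
`2 τ(H) ≤ r ν(H) + 1`, and in particular Ryser's inequality `τ(H) ≤ (r - 1) ν(H)` holds.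
-/

namespace Vale.Agent.Results.P045.ShiftedRyser

variable {r : ℕ} {α : Type*}

/-- `S` is a vertex cover of `H`: every edge `e` contains a vertex `(i, e i)` of `S`. -/
def IsCover (H : Finset (Fin r → α)) (S : Finset (Fin r × α)) : Prop :=
  ∀ e ∈ H, ∃ i, (i, e i) ∈ S

/-- `M` is a matching of `H`: a set of edges of `H`, any two distinct ones having no common vertex. -/
def IsMatching (H M : Finset (Fin r → α)) : Prop :=
  M ⊆ H ∧ ∀ e ∈ M, ∀ f ∈ M, e ≠ f → ∀ i, e i ≠ f i

/-- covering number: the least size of a vertex cover. -/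
noncomputable def tau (H : Finset (Fin r → α)) : ℕ :=
  sInf {n | ∃ S : Finset (Fin r × α), IsCover H S ∧ S.card = n}

/-- matching number: the largest size of a matching. -/
noncomputable def nu (H : Finset (Fin r → α)) : ℕ :=
  sSup {n | ∃ M : Finset (Fin r → α), IsMatching H M ∧ M.card = n}

lemma tau_le {H : Finset (Fin r → α)} {S : Finset (Fin r × α)} (h : IsCover H S) :
    tau H ≤ S.card :=
  Nat.sInf_le ⟨S, h, rfl⟩

lemma le_nu {H M : Finset (Fin r → α)} (h : IsMatching H M) : M.card ≤ nu H := by
  apply le_csSup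
  · refine ⟨H.card, ?_⟩
    rintro n ⟨M', hM', rfl⟩
    exact Finset.card_le_card hM'.1
  · exact ⟨M, h, rfl⟩

/-- the staircase below `b`. -/
def stair (b : Fin r → ℕ) : Finset (Fin r × ℕ) :=
  Finset.univ.sigma (fun i => Finset.range (b i)) |>.map
    ⟨fun p => (p.1, p.2), fun p q h => by
      cases p; cases q; simp only [Prod.mk.injEq] at h; obtain ⟨rfl, rfl⟩ := h; rfl⟩

lemma card_stair (b : Fin r → ℕ) : (stair b).card = ∑ i, b i := by
  simp [stair]

lemma mem_stair (b : Fin r → ℕ) (i : Fin r) (j : ℕ) : (i, j) ∈ stair b ↔ j < b i := by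
  simp only [stair, Finset.mem_map, Finset.mem_sigma, Finset.mem_univ, true_and,
    Finset.mem_range, Sigma.exists]
  constructor
  · rintro ⟨a, c, h, heq⟩
    cases heq
    exact h
  · intro h; exact ⟨i, j, h, rfl⟩

/-- In a lower set every vector of coordinate sum `< τ` is an edge. -/
lemma mem_of_sum_lt {H : Finset (Fin r → ℕ)} (hH : IsLowerSet (H : Set (Fin r → ℕ)))
    (b : Fin r → ℕ) (hb : ∑ i, b i < tau H) : b ∈ H := by
  by_contra hn
  have hc : IsCover H (stair b) := by
    intro e he
    by_contra hne
    push Not at hne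
    apply hn
    have : b ≤ e := by
      intro i
      have := hne i
      rw [mem_stair] at this
      exact not_lt.1 this
    exact hH this he
  have := tau_le hc
  rw [card_stair] at this
  omega

/-- The balanced families: `k+1` vectors, pairwise different in every coordinate, of coordinate sum
at most `(r k + 1)/2`. -/
def Balanced (k r : ℕ) : Prop :=
  ∃ v : ℕ → Fin r → ℕ, (∀ i, ∀ j ≤ k, ∀ j' ≤ k, v j i = v j' i → j = j') ∧
    ∀ j ≤ k, 2 * ∑ i, v j i ≤ r * k + 1

lemma balanced_two (k : ℕ) : Balanced k 2 := by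
  refine ⟨fun j => ![j, k - j], ?_, ?_⟩
  · intro i j hj j' hj' h
    fin_cases i
    · simpa using h
    · simp at h; omega
  · intro j hj
    simp [Fin.sum_univ_two]
    omega

lemma balanced_three (k : ℕ) : Balanced k 3 := by
  refine ⟨fun j => ![j, if 2 * j ≤ k then k - 2 * j else 2 * (k - j) + (1 - k % 2),
    if 2 * j ≤ k then (k + 1) / 2 + j else j - k / 2 - 1], ?_, ?_⟩
  · intro i j hj j' hj' h
    fin_cases i
    · simpa using h
    · simp at h
      split_ifs at h <;> omega
    · simp at h
      split_ifs at h <;> omega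
  · intro j hj
    simp [Fin.sum_univ_three]
    split_ifs <;> omega

lemma balanced_add_two {k r : ℕ} (h : Balanced k r) : Balanced k (r + 2) := by
  obtain ⟨v, h1, h2⟩ := h
  refine ⟨fun j => Fin.cons j (Fin.cons (k - j) (v j)), ?_, ?_⟩
  · intro i j hj j' hj' h
    induction i using Fin.cases with
    | zero => simpa using h
    | succ i =>
      induction i using Fin.cases with
      | zero => simp at h; omega
      | succ i => simp at h; exact h1 i j hj j' hj' h
  · intro j hj
    have := h2 j hj
    simp only [Fin.sum_univ_succ, Fin.cons_zero, Fin.cons_succ]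
    have e : (r + 2) * k = r * k + 2 * k := by ring
    rw [e]
    omega

lemma balanced (k : ℕ) : ∀ r, 2 ≤ r → Balanced k r := by
  intro r
  induction r using Nat.strong_induction_on with
  | _ r ih =>
    intro hr
    rcases Nat.lt_or_ge r 4 with h | h
    · interval_cases r
      · exact balanced_two k
      · exact balanced_three k
    · obtain ⟨s, rfl⟩ : ∃ s, r = s + 2 := ⟨r - 2, by omega⟩
      exact balanced_add_two (ih s (by omega) (by omega))

theorem sharp_bound (hr : 2 ≤ r) (H : Finset (Fin r → ℕ))
    (hH : IsLowerSet (H : Set (Fin r → ℕ))) : 2 * tau H ≤ r * nu H + 1 := by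
  by_contra hcon
  push Not at hcon
  obtain ⟨v, h1, h2⟩ := balanced (nu H) r hr
  have hr0 : 0 < r := by omega
  have hinj : Set.InjOn v (Finset.range (nu H + 1) : Set ℕ) := by
    intro j hj j' hj' h
    simp only [Finset.coe_range, Set.mem_Iio] at hj hj'
    exact h1 ⟨0, hr0⟩ j (by omega) j' (by omega) (by rw [h])
  have hM : IsMatching H ((Finset.range (nu H + 1)).image v) := by
    constructor
    · intro e he
      obtain ⟨j, hj, rfl⟩ := Finset.mem_image.1 he
      have hj' : j ≤ nu H := by simpa [Nat.lt_succ_iff] using hj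
      apply mem_of_sum_lt hH
      have := h2 j hj'
      omega
    · intro e he f hf hne i heq
      obtain ⟨j, hj, rfl⟩ := Finset.mem_image.1 he
      obtain ⟨j', hj', rfl⟩ := Finset.mem_image.1 hf
      have hj1 : j ≤ nu H := by simpa [Nat.lt_succ_iff] using hj
      have hj2 : j' ≤ nu H := by simpa [Nat.lt_succ_iff] using hj'
      exact hne (by rw [h1 i j hj1 j' hj2 heq])
  have := le_nu hM
  rw [Finset.card_image_of_injOn hinj, Finset.card_range] at this
  omega

theorem result (r : ℕ) (hr : 2 ≤ r) (H : Finset (Fin r → ℕ))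
    (hH : IsLowerSet (H : Set (Fin r → ℕ))) :
    2 * tau H ≤ r * nu H + 1 ∧ tau H ≤ (r - 1) * nu H := by
  have h := sharp_bound hr H hH
  refine ⟨h, ?_⟩
  obtain ⟨s, rfl⟩ : ∃ s, r = s + 2 := ⟨r - 2, by omega⟩
  have e1 : (s + 2 - 1) * nu H = s * nu H + nu H := by
    have : s + 2 - 1 = s + 1 := by omega
    rw [this]; ring
  have e2 : (s + 2) * nu H = s * nu H + 2 * nu H := by ring
  rw [e1]
  rw [e2] at h
  rcases Nat.eq_zero_or_pos s with rfl | hs
  · omega
  · rcases Nat.eq_zero_or_pos (nu H) with h0 | h0
    · rw [h0] at h ⊢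
      omega
    · have : nu H ≤ s * nu H := Nat.le_mul_of_pos_left _ hs
      omega

end Vale.Agent.Results.P045.ShiftedRyser
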